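import Vale.Agent.P153.R2.EXAP.Rhombus

/-! # P153, block EXAP: the lattice rhombi approximate the rhombus -/

namespace Vale.Agent.P153.R2.EXAP

open Set Filter Topology Vale.Agent.P153.R2.Final

/-! ### Enclosed compact sets -/

lemma mem_region {m : ℕ} (hm : 0 < m) {w : ℝ × ℝ} (hw : sR w < 1) :
    w ∈ region (1 / (m : ℝ)) (tri m) := by
  have hm' : (0 : ℝ) < m := by exact_mod_cast hm
  rw [sR_apply, max_lt_iff] at hw
  obtain ⟨ha, hb⟩ := hw
  rw [abs_lt] at ha hb
  set x : ℤ := ⌊(m : ℝ) * la w⌋ with hx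
  set y : ℤ := ⌊(m : ℝ) * lb w⌋ with hy
  set f : ℝ := Int.fract ((m : ℝ) * la w) with hf
  set g : ℝ := Int.fract ((m : ℝ) * lb w) with hg
  have hxf : (m : ℝ) * la w = x + f := (Int.floor_add_fract _).symm
  have hyg : (m : ℝ) * lb w = y + g := (Int.floor_add_fract _).symm
  have hf0 : 0 ≤ f := Int.fract_nonneg _
  have hf1 : f < 1 := Int.fract_lt_one _
  have hg0 : 0 ≤ g := Int.fract_nonneg _
  have hg1 : g < 1 := Int.fract_lt_one _
  have hx1 : -(m : ℤ) ≤ x ∧ x < m := by
    constructor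
    · rw [hx, Int.le_floor]
      push_cast
      nlinarith
    · rw [hx, Int.floor_lt]
      push_cast
      nlinarith
  have hy1 : -(m : ℤ) ≤ y ∧ y < m := by
    constructor
    · rw [hy, Int.le_floor]
      push_cast
      nlinarith
    · rw [hy, Int.floor_lt]
      push_cast
      nlinarith
  have hla : la w = (1 / m : ℝ) * (x + f) := by
    rw [← hxf]
    field_simp
  have hlb : lb w = (1 / m : ℝ) * (y + g) := by
    rw [← hyg]
    field_simp
  have he : w = (la w + lb w / 2, √3 / 2 * lb w) := eq_of_coord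
  rcases le_or_gt (f + g) 1 with h | h
  · refine ⟨((x, y), false), mem_tri.2 ⟨hx1, hy1⟩, ?_⟩
    have h1 : (1 / m : ℝ) • pt (x, y) ∈ (fun v => (1 / m : ℝ) • pt v) ''
        (corners ((x, y), false) : Set (ℤ × ℤ)) := ⟨(x, y), by simp [corners], rfl⟩
    have h2 : (1 / m : ℝ) • pt (x + 1, y) ∈ (fun v => (1 / m : ℝ) • pt v) ''
        (corners ((x, y), false) : Set (ℤ × ℤ)) := ⟨(x + 1, y), by simp [corners], rfl⟩
    have h3 : (1 / m : ℝ) • pt (x, y + 1) ∈ (fun v => (1 / m : ℝ) • pt v) ''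
        (corners ((x, y), false) : Set (ℤ × ℤ)) := ⟨(x, y + 1), by simp [corners], rfl⟩
    have hc := convex_convexHull ℝ ((fun v => (1 / m : ℝ) • pt v) ''
      (corners ((x, y), false) : Set (ℤ × ℤ)))
    have hcomb := hc.sum_mem (t := (Finset.univ : Finset (Fin 3)))
      (w := ![1 - f - g, f, g])
      (z := ![(1 / m : ℝ) • pt (x, y), (1 / m : ℝ) • pt (x + 1, y), (1 / m : ℝ) • pt (x, y + 1)])
      (by intro i _; fin_cases i <;> simp <;> linarith)
      (by
        rw [Fin.sum_univ_three]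
        simp only [Matrix.cons_val_zero, Matrix.cons_val_one, Matrix.cons_val]
        ring)
      (by intro i _; fin_cases i <;> simp only [] <;>
          first | exact subset_convexHull ℝ _ h1 | exact subset_convexHull ℝ _ h2 |
            exact subset_convexHull ℝ _ h3)
    have hsum : ∑ i : Fin 3, (![1 - f - g, f, g] : Fin 3 → ℝ) i •
        (![(1 / m : ℝ) • pt (x, y), (1 / m : ℝ) • pt (x + 1, y), (1 / m : ℝ) • pt (x, y + 1)] :
          Fin 3 → ℝ × ℝ) i = w := by
      rw [Fin.sum_univ_three]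
      rw [he, hla, hlb]
      ext
      · simp [pt]
        ring
      · simp [pt]
        ring
    rw [hsum] at hcomb
    exact hcomb
  · refine ⟨((x, y), true), mem_tri.2 ⟨hx1, hy1⟩, ?_⟩
    have h1 : (1 / m : ℝ) • pt (x + 1, y) ∈ (fun v => (1 / m : ℝ) • pt v) ''
        (corners ((x, y), true) : Set (ℤ × ℤ)) := ⟨(x + 1, y), by simp [corners], rfl⟩
    have h2 : (1 / m : ℝ) • pt (x, y + 1) ∈ (fun v => (1 / m : ℝ) • pt v) ''
        (corners ((x, y), true) : Set (ℤ × ℤ)) := ⟨(x, y + 1), by simp [corners], rfl⟩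
    have h3 : (1 / m : ℝ) • pt (x + 1, y + 1) ∈ (fun v => (1 / m : ℝ) • pt v) ''
        (corners ((x, y), true) : Set (ℤ × ℤ)) := ⟨(x + 1, y + 1), by simp [corners], rfl⟩
    have hc := convex_convexHull ℝ ((fun v => (1 / m : ℝ) • pt v) ''
      (corners ((x, y), true) : Set (ℤ × ℤ)))
    have hcomb := hc.sum_mem (t := (Finset.univ : Finset (Fin 3)))
      (w := ![1 - g, 1 - f, f + g - 1])
      (z := ![(1 / m : ℝ) • pt (x + 1, y), (1 / m : ℝ) • pt (x, y + 1),
        (1 / m : ℝ) • pt (x + 1, y + 1)])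
      (by intro i _; fin_cases i <;> simp <;> linarith)
      (by
        rw [Fin.sum_univ_three]
        simp only [Matrix.cons_val_zero, Matrix.cons_val_one, Matrix.cons_val]
        ring)
      (by intro i _; fin_cases i <;> simp only [] <;>
          first | exact subset_convexHull ℝ _ h1 | exact subset_convexHull ℝ _ h2 |
            exact subset_convexHull ℝ _ h3)
    have hsum : ∑ i : Fin 3, (![1 - g, 1 - f, f + g - 1] : Fin 3 → ℝ) i •
        (![(1 / m : ℝ) • pt (x + 1, y), (1 / m : ℝ) • pt (x, y + 1),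
          (1 / m : ℝ) • pt (x + 1, y + 1)] : Fin 3 → ℝ × ℝ) i = w := by
      rw [Fin.sum_univ_three]
      rw [he, hla, hlb]
      ext
      · simp [pt]
        ring
      · simp [pt]
        ring
    rw [hsum] at hcomb
    exact hcomb

/-! ### Angles -/

/-- The angle of a boundary vertex of the upper half of the rhombus. -/
noncomputable def th (m i : ℤ) : ℝ := Complex.arg (toC (pt (q m i)))

/-- Cross product. -/
def cr (u v : ℝ × ℝ) : ℝ := u.1 * v.2 - u.2 * v.1

lemma toC_ne {u : ℝ × ℝ} (hu : u ≠ 0) : toC u ≠ 0 := by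
  intro h
  apply hu
  have h1 : u.1 = 0 := congrArg Complex.re h
  have h2 : u.2 = 0 := congrArg Complex.im h
  exact Prod.ext h1 h2

/-- Polar coordinates. -/
lemma polar {u : ℝ × ℝ} (hu : u ≠ 0) : u = ‖toC u‖ • circ (Complex.arg (toC u)) := by
  have h1 := Complex.cos_arg (toC_ne hu)
  have h2 := Complex.sin_arg (toC u)
  have h3 : 0 < ‖toC u‖ := norm_pos_iff.2 (toC_ne hu)
  rw [circ, h1, h2]
  ext
  · simp only [Prod.smul_fst, smul_eq_mul]
    rw [mul_div_cancel₀ _ h3.ne']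
    rfl
  · simp only [Prod.smul_snd, smul_eq_mul]
    rw [mul_div_cancel₀ _ h3.ne']
    rfl

/-- Two consecutive points of the closed upper half-plane in anticlockwise order. -/
lemma arg_lt {u v : ℝ × ℝ} (hu : 0 ≤ u.2) (hv : 0 ≤ v.2) (h : 0 < cr u v) :
    0 < Complex.arg (toC v) - Complex.arg (toC u) ∧
      Complex.arg (toC v) - Complex.arg (toC u) < Real.pi := by
  have hu0 : u ≠ 0 := by
    rintro rfl
    simp [cr] at h
  have hv0 : v ≠ 0 := by
    rintro rfl
    simp [cr] at h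
  have pu := polar hu0
  have pv := polar hv0
  have nu : 0 < ‖toC u‖ := norm_pos_iff.2 (toC_ne hu0)
  have nv : 0 < ‖toC v‖ := norm_pos_iff.2 (toC_ne hv0)
  set a := Complex.arg (toC u) with ha
  set b := Complex.arg (toC v) with hb
  have e : cr u v = ‖toC u‖ * ‖toC v‖ * Real.sin (b - a) := by
    rw [Real.sin_sub]
    conv_lhs => rw [pu, pv]
    simp only [cr, circ, Prod.smul_fst, Prod.smul_snd, smul_eq_mul]
    ring
  have hs : 0 < Real.sin (b - a) := by
    rw [e] at h
    exact pos_of_mul_pos_right h (by positivity)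
  have ha0 : 0 ≤ a := Complex.arg_nonneg_iff.2 hu
  have hb0 : 0 ≤ b := Complex.arg_nonneg_iff.2 hv
  have ha1 : a ≤ Real.pi := Complex.arg_le_pi _
  have hb1 : b ≤ Real.pi := Complex.arg_le_pi _
  constructor
  · by_contra hcon
    push Not at hcon
    have := Real.sin_nonpos_of_nonpos_of_neg_pi_le hcon (by linarith)
    linarith
  · by_contra hcon
    push Not at hcon
    have h1 : b - a = Real.pi := le_antisymm (by linarith) hcon
    rw [h1, Real.sin_pi] at hs
    exact lt_irrefl _ hs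

lemma circ_comb {a b t : ℝ} (hab : Real.sin (b - a) ≠ 0) :
    circ t = (Real.sin (b - t) / Real.sin (b - a)) • circ a +
      (Real.sin (t - a) / Real.sin (b - a)) • circ b := by
  have h1 : Real.sin (b - a) * Real.cos t =
      Real.sin (b - t) * Real.cos a + Real.sin (t - a) * Real.cos b := by
    simp only [Real.sin_sub]
    ring
  have h2 : Real.sin (b - a) * Real.sin t =
      Real.sin (b - t) * Real.sin a + Real.sin (t - a) * Real.sin b := by
    simp only [Real.sin_sub]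
    ring
  ext
  · simp only [circ, Prod.fst_add, Prod.smul_fst, smul_eq_mul]
    field_simp
    linarith
  · simp only [circ, Prod.snd_add, Prod.smul_snd, smul_eq_mul]
    field_simp
    linarith

lemma circ_ne_zero (t : ℝ) : circ t ≠ 0 := by
  intro h
  have h1 := sE_circ t
  rw [h, map_zero] at h1
  norm_num at h1

/-- The image of an arc between the directions of `u` and `v`, which lie on the same side of the
rhombus of size `m`, is the segment from `u / m` to `v / m`. -/
lemma dist_seg {m : ℝ} (hm : 0 < m) {u v : ℝ × ℝ} (hu : 0 ≤ u.2) (hv : 0 ≤ v.2) (h : 0 < cr u v)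
    (hum : sR u = m) (hvm : sR v = m)
    (hface : ∀ α β : ℝ, 0 ≤ α → 0 ≤ β → sR (α • u + β • v) = (α + β) * m)
    (huv : ‖u - v‖ ≤ 1) {t : ℝ}
    (ht : t ∈ Icc (Complex.arg (toC u)) (Complex.arg (toC v))) :
    dist ((1 / m) • u) (Phi (circ t)) ≤ 1 / m := by
  have hu0 : u ≠ 0 := by
    rintro rfl
    simp [cr] at h
  have hv0 : v ≠ 0 := by
    rintro rfl
    simp [cr] at h
  have pu := polar hu0
  have pv := polar hv0
  have nu : 0 < ‖toC u‖ := norm_pos_iff.2 (toC_ne hu0)
  have nv : 0 < ‖toC v‖ := norm_pos_iff.2 (toC_ne hv0)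
  obtain ⟨h1, h2⟩ := arg_lt hu hv h
  set a := Complex.arg (toC u) with ha
  set b := Complex.arg (toC v) with hb
  have hs : 0 < Real.sin (b - a) := Real.sin_pos_of_pos_of_lt_pi h1 h2
  have hs1 : 0 ≤ Real.sin (b - t) :=
    Real.sin_nonneg_of_nonneg_of_le_pi (by linarith [ht.2]) (by linarith [ht.1])
  have hs2 : 0 ≤ Real.sin (t - a) :=
    Real.sin_nonneg_of_nonneg_of_le_pi (by linarith [ht.1]) (by linarith [ht.2])
  set α : ℝ := Real.sin (b - t) / Real.sin (b - a) / ‖toC u‖ with hα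
  set β : ℝ := Real.sin (t - a) / Real.sin (b - a) / ‖toC v‖ with hβ
  have hα0 : 0 ≤ α := by positivity
  have hβ0 : 0 ≤ β := by positivity
  have hc : circ t = α • u + β • v := by
    rw [circ_comb (a := a) (b := b) hs.ne']
    conv_rhs => rw [pu, pv]
    rw [smul_smul, smul_smul, hα, hβ, div_mul_cancel₀ _ nu.ne', div_mul_cancel₀ _ nv.ne']
  have hαβ : 0 < α + β := by
    rcases (add_nonneg hα0 hβ0).eq_or_lt with h3 | h3
    · exfalso
      have e1 : α = 0 := by linarith
      have e2 : β = 0 := by linarith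
      apply circ_ne_zero t
      rw [hc, e1, e2]
      simp
    · exact h3
  have hR : sR (circ t) = (α + β) * m := by
    rw [hc]
    exact hface α β hα0 hβ0
  have hP : (1 / m) • u - Phi (circ t) = (1 / m * (β / (α + β))) • (u - v) := by
    rw [Phi_circ, hR, hc]
    ext
    · simp only [Prod.fst_sub, Prod.smul_fst, Prod.fst_add, smul_eq_mul]
      field_simp
      ring
    · simp only [Prod.snd_sub, Prod.smul_snd, Prod.snd_add, smul_eq_mul]
      field_simp
      ring
  rw [dist_eq_norm, hP, norm_smul, Real.norm_eq_abs, abs_of_nonneg (by positivity)]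
  have h3 : β / (α + β) ≤ 1 := by
    rw [div_le_one hαβ]
    linarith
  calc 1 / m * (β / (α + β)) * ‖u - v‖ ≤ 1 / m * 1 * 1 := by gcongr
    _ = 1 / m := by ring

/-! ### The vertices of the upper half -/

lemma q_snd_nonneg {m i : ℤ} (h0 : 0 ≤ i) (h1 : i ≤ 4 * m) : 0 ≤ (q m i).2 := by
  unfold q
  split_ifs <;> simp only <;> omega

lemma q_max {m i : ℤ} (h0 : 0 ≤ i) (h1 : i ≤ 8 * m) :
    |(q m i).1| ≤ m ∧ |(q m i).2| ≤ m := by
  unfold q
  split_ifs <;> simp only [abs_le] <;> omega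

lemma cr_pt (v w : ℤ × ℤ) : cr (pt v) (pt w) = √3 / 2 * ((v.1 * w.2 - v.2 * w.1 : ℤ) : ℝ) := by
  simp only [cr, pt]
  push_cast
  ring

lemma cr_q {m i : ℤ} (hm : 0 < m) (h0 : 0 ≤ i) (h1 : i < 8 * m) :
    0 < cr (pt (q m i)) (pt (q m (i + 1))) := by
  rw [cr_pt]
  have h3 := sqrt3_pos
  have key : (q m i).1 * (q m (i + 1)).2 - (q m i).2 * (q m (i + 1)).1 = m := by
    rcases q_step hm h0 h1 with ⟨h, h2, -⟩ | ⟨h, h2, -⟩ | ⟨h, h2, -⟩ | ⟨h, h2, -⟩ <;> rw [h] <;>
      simp only [Prod.fst_add, Prod.snd_add, Prod.fst_sub, Prod.snd_sub] <;>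
      rw [h2] <;> ring
  rw [key]
  have : (0 : ℝ) < m := by exact_mod_cast hm
  positivity

lemma pt_snd_nonneg {v : ℤ × ℤ} (h : 0 ≤ v.2) : 0 ≤ (pt v).2 := by
  have h3 := sqrt3_pos
  have : (0 : ℝ) ≤ v.2 := by exact_mod_cast h
  simp only [pt]
  positivity

lemma la_comb (α β : ℝ) (u v : ℝ × ℝ) : la (α • u + β • v) = α * la u + β * la v := by
  rw [map_add, map_smul, map_smul, smul_eq_mul, smul_eq_mul]

lemma lb_comb (α β : ℝ) (u v : ℝ × ℝ) : lb (α • u + β • v) = α * lb u + β * lb v := by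
  rw [map_add, map_smul, map_smul, smul_eq_mul, smul_eq_mul]

lemma abs_comb {α β a b m : ℝ} (hα : 0 ≤ α) (hβ : 0 ≤ β) (ha : |a| ≤ m) (hb : |b| ≤ m) :
    |α * a + β * b| ≤ (α + β) * m := by
  calc |α * a + β * b| ≤ |α * a| + |β * b| := abs_add_le _ _
    _ = α * |a| + β * |b| := by rw [abs_mul, abs_mul, abs_of_nonneg hα, abs_of_nonneg hβ]
    _ ≤ α * m + β * m := add_le_add (mul_le_mul_of_nonneg_left ha hα) (mul_le_mul_of_nonneg_left hb hβ)
    _ = _ := by ring

/-- Two consecutive vertices are on a common side of the rhombus. -/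
lemma face {m i : ℤ} (hm : 0 < m) (h0 : 0 ≤ i) (h1 : i < 8 * m) {α β : ℝ} (hα : 0 ≤ α)
    (hβ : 0 ≤ β) : sR (α • pt (q m i) + β • pt (q m (i + 1))) = (α + β) * m := by
  have hm' : (0 : ℝ) < m := by exact_mod_cast hm
  rw [sR_apply, la_comb, lb_comb, la_pt, lb_pt, la_pt, lb_pt]
  obtain ⟨a1, a2⟩ := q_max h0 h1.le
  obtain ⟨b1, b2⟩ := q_max (m := m) (i := i + 1) (by omega) (by omega)
  have a1' : |((q m i).1 : ℝ)| ≤ m := by exact_mod_cast a1
  have a2' : |((q m i).2 : ℝ)| ≤ m := by exact_mod_cast a2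
  have b1' : |((q m (i + 1)).1 : ℝ)| ≤ m := by exact_mod_cast b1
  have b2' : |((q m (i + 1)).2 : ℝ)| ≤ m := by exact_mod_cast b2
  have c1 := abs_comb hα hβ a1' b1'
  have c2 := abs_comb hα hβ a2' b2'
  have hαβ : 0 ≤ (α + β) * m := by positivity
  rcases q_step hm h0 h1 with ⟨h, h2, -⟩ | ⟨h, h2, -⟩ | ⟨h, h2, -⟩ | ⟨h, h2, -⟩
  · have e : α * ((q m i).1 : ℝ) + β * ((q m (i + 1)).1 : ℝ) = (α + β) * m := by
      rw [h, Prod.fst_add, h2]
      push_cast
      ring
    rw [e, abs_of_nonneg hαβ]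
    exact max_eq_left c2
  · have e : α * ((q m i).2 : ℝ) + β * ((q m (i + 1)).2 : ℝ) = (α + β) * m := by
      rw [h, Prod.snd_sub, h2]
      push_cast
      ring
    rw [e, abs_of_nonneg hαβ]
    exact max_eq_right c1
  · have e : α * ((q m i).1 : ℝ) + β * ((q m (i + 1)).1 : ℝ) = -((α + β) * m) := by
      rw [h, Prod.fst_sub, h2]
      push_cast
      ring
    rw [e, abs_neg, abs_of_nonneg hαβ]
    exact max_eq_left c2
  · have e : α * ((q m i).2 : ℝ) + β * ((q m (i + 1)).2 : ℝ) = -((α + β) * m) := by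
      rw [h, Prod.snd_add, h2]
      push_cast
      ring
    rw [e, abs_neg, abs_of_nonneg hαβ]
    exact max_eq_right c1

lemma sR_q {m i : ℤ} (hm : 0 < m) (h0 : 0 ≤ i) (h1 : i < 8 * m) : sR (pt (q m i)) = m := by
  have := face hm h0 h1 (α := 1) (β := 0) zero_le_one le_rfl
  simpa using this

lemma sR_q' {m i : ℤ} (hm : 0 < m) (h0 : 0 ≤ i) (h1 : i < 8 * m) :
    sR (pt (q m (i + 1))) = m := by
  have := face hm h0 h1 (α := 0) (β := 1) le_rfl zero_le_one
  simpa using this

lemma norm_step {m i : ℤ} (hm : 0 < m) (h0 : 0 ≤ i) (h1 : i < 8 * m) :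
    ‖pt (q m i) - pt (q m (i + 1))‖ ≤ 1 := by
  have h3 : √(3 : ℝ) ≤ 2 := by
    rw [Real.sqrt_le_left (by norm_num)]
    norm_num
  have h3' := sqrt3_pos
  rcases q_step hm h0 h1 with ⟨h, -⟩ | ⟨h, -⟩ | ⟨h, -⟩ | ⟨h, -⟩ <;> rw [h, Prod.norm_def] <;>
    apply max_le <;> rw [Real.norm_eq_abs, abs_le] <;> simp only [pt, Prod.fst_sub, Prod.snd_sub,
      Prod.fst_add, Prod.snd_add] <;> push_cast <;> constructor <;> nlinarith

lemma dist_q {m i : ℤ} (hm : 0 < m) (h0 : 0 ≤ i) (h1 : i < 4 * m) {t : ℝ}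
    (ht : t ∈ Icc (th m i) (th m (i + 1))) :
    dist ((1 / (m : ℝ)) • pt (q m i)) (Phi (circ t)) ≤ 1 / m :=
  dist_seg (by exact_mod_cast hm) (pt_snd_nonneg (q_snd_nonneg h0 h1.le))
    (pt_snd_nonneg (q_snd_nonneg (by omega) (by omega))) (cr_q hm h0 (by omega))
    (sR_q hm h0 (by omega)) (sR_q' hm h0 (by omega))
    (fun _ _ hα hβ => face hm h0 (by omega) hα hβ) (norm_step hm h0 (by omega)) ht

lemma th_lt {m i : ℤ} (hm : 0 < m) (h0 : 0 ≤ i) (h1 : i < 4 * m) : th m i < th m (i + 1) := by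
  have := (arg_lt (pt_snd_nonneg (q_snd_nonneg h0 h1.le))
    (pt_snd_nonneg (q_snd_nonneg (by omega) (by omega))) (cr_q hm h0 (by omega))).1
  exact sub_pos.1 this

lemma th_zero {m : ℤ} (hm : 0 < m) : th m 0 = 0 := by
  have hm' : (0 : ℝ) < m := by exact_mod_cast hm
  have : toC (pt (q m 0)) = ((m : ℝ) : ℂ) := by
    rw [q_zero hm]
    apply Complex.ext <;> simp [toC, pt]
  rw [th, this]
  exact Complex.arg_ofReal_of_nonneg hm'.le

lemma th_half {m : ℤ} (hm : 0 < m) : th m (4 * m) = Real.pi := by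
  have hm' : (0 : ℝ) < m := by exact_mod_cast hm
  have : toC (pt (q m (4 * m))) = ((-(m : ℝ) : ℝ) : ℂ) := by
    rw [q_half hm]
    apply Complex.ext <;> simp [toC, pt]
  rw [th, this]
  exact Complex.arg_ofReal_of_neg (by linarith)

/-! ### The parametrization -/

/-- The angle, constant after the half turn. -/
noncomputable def tc (m : ℕ) (i : ℕ) : ℝ := th m (min i (4 * m) : ℕ)

lemma tc_mono {m : ℕ} (hm : 0 < m) : Monotone (tc m) := by
  refine monotone_nat_of_le_succ fun i => ?_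
  rcases lt_or_ge i (4 * m) with h | h
  · rw [tc, tc, min_eq_left h.le, min_eq_left h]
    have := th_lt (m := m) (i := i) (by exact_mod_cast hm) (by omega) (by exact_mod_cast h)
    push_cast
    exact this.le
  · rw [tc, tc, min_eq_right h, min_eq_right (by omega)]

lemma tc_of_le {m i : ℕ} (h : i ≤ 4 * m) : tc m i = th m i := by
  rw [tc, min_eq_left h]

lemma tc_of_ge {m i : ℕ} (hm : 0 < m) (h : 4 * m ≤ i) : tc m i = Real.pi := by
  rw [tc, min_eq_right h]
  push_cast
  exact th_half (by exact_mod_cast hm)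

lemma tc_zero {m : ℕ} (hm : 0 < m) : tc m 0 = 0 := by
  rw [tc_of_le (by omega)]
  exact th_zero (by exact_mod_cast hm)

/-- The parameters of the vertices. -/
noncomputable def ss (m : ℕ) (i : ℕ) : ℝ := tc m i + tc m (i - 4 * m)

lemma ss_mono {m : ℕ} (hm : 0 < m) : Monotone (ss m) := fun i j h =>
  add_le_add (tc_mono hm h) (tc_mono hm (Nat.sub_le_sub_right h _))

lemma circ_add_pi (t : ℝ) : circ (Real.pi + t) = -circ t := by
  rw [circ, circ, add_comm, Real.cos_add_pi, Real.sin_add_pi]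
  rfl

lemma pt_neg (v : ℤ × ℤ) : pt (-v) = -pt v := by
  simp only [pt, Prod.fst_neg, Prod.snd_neg, Prod.neg_mk]
  push_cast
  ext <;> simp only <;> ring

lemma dist_p {m : ℕ} (hm : 0 < m) {i : ℕ} (hi : i < 8 * m) {t : ℝ}
    (ht : t ∈ Icc (ss m i) (ss m (i + 1))) :
    dist ((1 / (m : ℝ)) • pt (p m (i : ZMod (8 * m)))) (Phi (circ t)) ≤ 1 / m := by
  rw [p_cast hi]
  have hmz : (0 : ℤ) < m := by exact_mod_cast hm
  rcases lt_or_ge i (4 * m) with h | h
  · have e1 : ss m i = th m i := by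
      rw [ss, Nat.sub_eq_zero_of_le h.le, tc_zero hm, add_zero, tc_of_le h.le]
    have e2 : ss m (i + 1) = th m ((i : ℤ) + 1) := by
      rw [ss, Nat.sub_eq_zero_of_le h, tc_zero hm, add_zero, tc_of_le h]
      push_cast
      rfl
    rw [e1, e2] at ht
    have := dist_q hmz (Int.natCast_nonneg i) (by exact_mod_cast h) ht
    rwa [Int.cast_natCast] at this
  · obtain ⟨j, rfl⟩ := Nat.exists_eq_add_of_le h
    have hj : j < 4 * m := by omega
    have e1 : ss m (4 * m + j) = Real.pi + th m j := by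
      rw [ss, tc_of_ge hm (by omega), Nat.add_sub_cancel_left, tc_of_le hj.le]
    have e2 : ss m (4 * m + j + 1) = Real.pi + th m ((j : ℤ) + 1) := by
      have : 4 * m + j + 1 - 4 * m = j + 1 := by omega
      rw [ss, tc_of_ge hm (by omega), this, tc_of_le hj]
      push_cast
      rfl
    rw [e1, e2] at ht
    have h2 : t - Real.pi ∈ Icc (th m j) (th m ((j : ℤ) + 1)) :=
      ⟨by linarith [ht.1], by linarith [ht.2]⟩
    have h3 := dist_q hmz (Int.natCast_nonneg j) (by exact_mod_cast hj) h2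
    have h4 : circ t = -circ (t - Real.pi) := by
      rw [← circ_add_pi]
      congr 1
      ring
    have h5 : q m ((4 * m + j : ℕ) : ℤ) = -q m j := by
      push_cast
      exact q_add hmz (Int.natCast_nonneg j) (by exact_mod_cast hj.le)
    rw [h4, Phi_neg, h5, pt_neg, smul_neg, dist_neg_neg]
    rwa [Int.cast_natCast] at h3

/-- **There is a marked Jordan domain with a lattice approximation.** -/
theorem approx : Approx Phi (fun n => 1 / ((n + 1 : ℕ) : ℝ)) (fun n => 8 * (n + 1))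
    (fun n => 4 * (n + 1)) (fun n => p (n + 1)) (fun n => tri (n + 1)) := by
  refine ⟨fun n => ⟨by positivity, show 0 < 4 * (n + 1) by omega,
    show 4 * (n + 1) < 8 * (n + 1) by omega, isPolygon (by omega), encloses (by omega)⟩,
    ?_, fun ε hε => ?_, fun K hK _ => ?_⟩
  · have := tendsto_one_div_add_atTop_nhds_zero_nat (𝕜 := ℝ)
    refine this.congr fun n => ?_
    push_cast
    rfl
  · have h1 : Tendsto (fun n : ℕ => 1 / ((n : ℝ) + 1)) atTop (𝓝 0) :=
      tendsto_one_div_add_atTop_nhds_zero_nat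
    filter_upwards [h1.eventually (gt_mem_nhds hε)] with n hn
    have hm : 0 < n + 1 := by omega
    refine ⟨ss (n + 1), ss_mono hm, ?_, ?_, ?_, fun i hi t ht => ?_⟩
    · rw [ss, Nat.zero_sub, tc_zero hm, add_zero]
    · rw [ss, Nat.sub_self, tc_zero hm, add_zero, tc_of_ge hm le_rfl]
    · have : 8 * (n + 1) - 4 * (n + 1) = 4 * (n + 1) := by omega
      rw [ss, this, tc_of_ge hm (by omega), tc_of_ge hm le_rfl]
      ring
    · refine (dist_p hm hi ht).trans_lt ?_
      push_cast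
      exact hn
  · refine Eventually.of_forall fun n z hz => ?_
    have h1 := hK hz
    rw [dom_Phi, Seminorm.mem_ball_zero] at h1
    exact mem_region (by omega) h1

theorem exists_approx : ∃ (Φ : (ℝ × ℝ) ≃ₜ (ℝ × ℝ)) (δ : ℕ → ℝ) (N k : ℕ → ℕ)
    (p : ∀ n, ZMod (N n) → ℤ × ℤ) (S : ℕ → Finset Tri), Approx Φ δ N k p S :=
  ⟨Phi, _, _, _, _, _, approx⟩

end Vale.Agent.P153.R2.EXAP
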