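import Vale.Agent.P153.R2.Final.Defs

/-! # P153, block EXAP: the lattice rhombus `[-m,m]²` as a lattice polygon -/

namespace Vale.Agent.P153.R2.EXAP

open Set Filter Topology Vale.Agent.P153.R2.Final

/-- The boundary of the rhombus, anticlockwise from `(m, 0)`. -/
def q (m i : ℤ) : ℤ × ℤ :=
  if i ≤ m then (m, i)
  else if i ≤ 3 * m then (2 * m - i, m)
  else if i ≤ 5 * m then (-m, 4 * m - i)
  else if i ≤ 7 * m then (i - 6 * m, -m)
  else (m, i - 8 * m)

lemma q_step {m i : ℤ} (hm : 0 < m) (h0 : 0 ≤ i) (h1 : i < 8 * m) :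
    (q m (i + 1) = q m i + (0, 1) ∧ (q m i).1 = m ∧ (i < m ∨ 7 * m ≤ i)) ∨
    (q m (i + 1) = q m i - (1, 0) ∧ (q m i).2 = m ∧ m ≤ i ∧ i < 3 * m) ∨
    (q m (i + 1) = q m i - (0, 1) ∧ (q m i).1 = -m ∧ 3 * m ≤ i ∧ i < 5 * m) ∨
    (q m (i + 1) = q m i + (1, 0) ∧ (q m i).2 = -m ∧ 5 * m ≤ i ∧ i < 7 * m) := by
  unfold q
  rcases lt_or_ge i m with h | h
  · left
    rw [if_pos (by omega), if_pos (by omega)]
    refine ⟨?_, rfl, Or.inl h⟩
    simp [Prod.ext_iff]
  rcases lt_or_ge i (3 * m) with h' | h'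
  · right; left
    rcases eq_or_lt_of_le h with rfl | h2
    · rw [if_neg (by omega), if_pos (by omega), if_pos (by omega)]
      refine ⟨?_, rfl, le_rfl, h'⟩
      simp [Prod.ext_iff]
      omega
    · rw [if_neg (by omega), if_pos (by omega), if_neg (by omega), if_pos (by omega)]
      refine ⟨?_, rfl, h, h'⟩
      simp [Prod.ext_iff]
      omega
  rcases lt_or_ge i (5 * m) with h2 | h2
  · right; right; left
    rcases eq_or_lt_of_le h' with h3 | h3
    · rw [if_neg (by omega), if_neg (by omega), if_pos (by omega), if_neg (by omega),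
        if_pos (by omega)]
      refine ⟨?_, ?_, h', h2⟩
      · simp only [Prod.ext_iff, Prod.fst_sub, Prod.snd_sub]
        constructor <;> omega
      · simp only
        omega
    · rw [if_neg (by omega), if_neg (by omega), if_pos (by omega), if_neg (by omega),
        if_neg (by omega), if_pos (by omega)]
      refine ⟨?_, rfl, h', h2⟩
      simp only [Prod.ext_iff, Prod.fst_sub, Prod.snd_sub]
      constructor <;> omega
  rcases lt_or_ge i (7 * m) with h4 | h4
  · right; right; right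
    rcases eq_or_lt_of_le h2 with h3 | h3
    · rw [if_neg (by omega), if_neg (by omega), if_neg (by omega), if_pos (by omega),
        if_neg (by omega), if_neg (by omega), if_pos (by omega)]
      refine ⟨?_, ?_, h2, h4⟩
      · simp only [Prod.ext_iff, Prod.fst_add, Prod.snd_add]
        constructor <;> omega
      · simp only
        omega
    · rw [if_neg (by omega), if_neg (by omega), if_neg (by omega), if_pos (by omega),
        if_neg (by omega), if_neg (by omega), if_neg (by omega), if_pos (by omega)]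
      refine ⟨?_, rfl, h2, h4⟩
      simp only [Prod.ext_iff, Prod.fst_add, Prod.snd_add]
      constructor <;> omega
  · left
    rcases eq_or_lt_of_le h4 with h3 | h3
    · rw [if_neg (by omega), if_neg (by omega), if_neg (by omega), if_neg (by omega),
        if_neg (by omega), if_neg (by omega), if_neg (by omega), if_pos (by omega)]
      refine ⟨?_, ?_, Or.inr h4⟩
      · simp only [Prod.ext_iff, Prod.fst_add, Prod.snd_add]
        constructor <;> omega
      · simp only
        omega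
    · rw [if_neg (by omega), if_neg (by omega), if_neg (by omega), if_neg (by omega),
        if_neg (by omega), if_neg (by omega), if_neg (by omega), if_neg (by omega)]
      refine ⟨?_, rfl, Or.inr h4⟩
      simp only [Prod.ext_iff, Prod.fst_add, Prod.snd_add]
      constructor <;> omega

lemma q_inj {m i j : ℤ} (hi : 0 ≤ i) (hi' : i < 8 * m) (hj : 0 ≤ j) (hj' : j < 8 * m)
    (h : q m i = q m j) : i = j := by
  unfold q at h
  split_ifs at h <;> simp only [Prod.mk.injEq] at h <;> omega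

lemma q_zero {m : ℤ} (hm : 0 < m) : q m 0 = (m, 0) := by
  rw [q, if_pos hm.le]

lemma q_last {m : ℤ} (hm : 0 < m) : q m (8 * m) = (m, 0) := by
  rw [q, if_neg (by omega), if_neg (by omega), if_neg (by omega), if_neg (by omega)]
  simp

lemma q_half {m : ℤ} (hm : 0 < m) : q m (4 * m) = (-m, 0) := by
  rw [q, if_neg (by omega), if_neg (by omega), if_pos (by omega)]
  simp

/-- Central symmetry. -/
lemma q_add {m i : ℤ} (hm : 0 < m) (h0 : 0 ≤ i) (h1 : i ≤ 4 * m) : q m (4 * m + i) = -q m i := by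
  unfold q
  split_ifs <;> simp only [Prod.ext_iff, Prod.fst_neg, Prod.snd_neg, and_true, true_and] <;> omega

/-- The polygon. -/
def p (m : ℕ) (i : ZMod (8 * m)) : ℤ × ℤ := q m (i.val : ℤ)

lemma p_cast {m : ℕ} {i : ℕ} (hi : i < 8 * m) : p m (i : ZMod (8 * m)) = q m i := by
  rw [p, ZMod.val_cast_of_lt hi]

lemma val_succ {m : ℕ} (hm : 0 < m) (i : ZMod (8 * m)) :
    (i + 1).val = if i.val + 1 = 8 * m then 0 else i.val + 1 := by
  have : NeZero (8 * m) := ⟨by omega⟩
  have : Fact (1 < 8 * m) := ⟨by omega⟩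
  rw [ZMod.val_add, ZMod.val_one]
  have h := ZMod.val_lt i
  split_ifs with h1
  · rw [h1, Nat.mod_self]
  · exact Nat.mod_eq_of_lt (by omega)

lemma p_succ {m : ℕ} (hm : 0 < m) (i : ZMod (8 * m)) :
    p m (i + 1) = q m ((i.val : ℤ) + 1) := by
  rw [p, val_succ hm]
  split_ifs with h1
  · have h2 : ((i.val : ℤ) + 1) = 8 * (m : ℤ) := by exact_mod_cast h1
    rw [h2, q_last (by exact_mod_cast hm), Nat.cast_zero, q_zero (by exact_mod_cast hm)]
  · push_cast
    rfl

lemma val_bd {m : ℕ} (hm : 0 < m) (i : ZMod (8 * m)) : (i.val : ℤ) < 8 * m := by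
  have : NeZero (8 * m) := ⟨by omega⟩
  exact_mod_cast ZMod.val_lt i

lemma len_unit {x : ℤ × ℤ} (h : x = (0, 1) ∨ x = -(1, 0) ∨ x = -(0, 1) ∨ x = (1, 0)) :
    len x = 1 := by
  rcases h with rfl | rfl | rfl | rfl <;> simp [len]

theorem isPolygon {m : ℕ} (hm : 0 < m) : IsPolygon (p m) := by
  refine ⟨by omega, ?_, ?_⟩
  · have : NeZero (8 * m) := ⟨by omega⟩
    intro i j hij
    have h := q_inj (m := m) (Int.natCast_nonneg _) (val_bd hm i) (Int.natCast_nonneg _)
      (val_bd hm j) hij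
    exact ZMod.val_injective _ (by exact_mod_cast h)
  · intro i
    rw [Adj, p_succ hm, p]
    apply len_unit
    rcases q_step (m := m) (by exact_mod_cast hm) (Int.natCast_nonneg i.val) (val_bd hm i) with
      ⟨h, -⟩ | ⟨h, -⟩ | ⟨h, -⟩ | ⟨h, -⟩ <;> rw [h]
    · left; abel
    · right; left; abel
    · right; right; left; abel
    · right; right; right; abel

/-- The triangles of the rhombus. -/
noncomputable def tri (m : ℕ) : Finset Tri :=
  (Finset.Ico (-(m : ℤ)) m ×ˢ Finset.Ico (-(m : ℤ)) m) ×ˢ Finset.univ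

lemma mem_tri {m : ℕ} {x y : ℤ} {b : Bool} :
    (((x, y), b) : Tri) ∈ tri m ↔ (-(m : ℤ) ≤ x ∧ x < m) ∧ (-(m : ℤ) ≤ y ∧ y < m) := by
  simp [tri]

/-- The horizontal edges of the polygon. -/
lemma isEdge_h {m : ℕ} (hm : 0 < m) (x y : ℤ) : IsEdge (p m) (x, y) (x + 1, y) ↔
    (-(m : ℤ) ≤ x ∧ x < m) ∧ (y = m ∨ y = -m) := by
  have hm' : (0 : ℤ) < m := by exact_mod_cast hm
  constructor
  · rintro ⟨i, h⟩
    have hst := q_step hm' (Int.natCast_nonneg i.val) (val_bd hm i)
    have hbd := val_bd hm i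
    rw [p_succ hm, p] at h
    unfold q at h hst
    rcases h with ⟨h1, h2⟩ | ⟨h1, h2⟩ <;>
    · rcases hst with ⟨h3, h4, h5⟩ | ⟨h3, h4, h5, h6⟩ | ⟨h3, h4, h5, h6⟩ | ⟨h3, h4, h5, h6⟩ <;>
      · rw [h2, h1] at h3
        rw [h1] at h4
        simp only [Prod.ext_iff, Prod.fst_add, Prod.snd_add, Prod.fst_sub, Prod.snd_sub] at h3 h4
        split_ifs at h1 <;> simp only [Prod.mk.injEq] at h1 <;> omega
  · rintro ⟨⟨h1, h2⟩, rfl | rfl⟩
    · obtain ⟨a, ha⟩ := Int.eq_ofNat_of_zero_le (show 0 ≤ 2 * (m : ℤ) - (x + 1) by omega)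
      refine ⟨(a : ZMod (8 * m)), Or.inr ?_⟩
      have hv : ((a : ZMod (8 * m)).val : ℤ) = a := by
        rw [ZMod.val_cast_of_lt (by omega)]
      rw [p_succ hm, p, hv]
      unfold q
      constructor <;> split_ifs <;> simp only [Prod.mk.injEq, true_and, and_true] <;> omega
    · obtain ⟨a, ha⟩ := Int.eq_ofNat_of_zero_le (show 0 ≤ x + 6 * (m : ℤ) by omega)
      refine ⟨(a : ZMod (8 * m)), Or.inl ?_⟩
      have hv : ((a : ZMod (8 * m)).val : ℤ) = a := by
        rw [ZMod.val_cast_of_lt (by omega)]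
      rw [p_succ hm, p, hv]
      unfold q
      constructor <;> split_ifs <;> simp only [Prod.mk.injEq, true_and, and_true] <;> omega

/-- The oblique edges of the polygon. -/
lemma isEdge_v {m : ℕ} (hm : 0 < m) (x y : ℤ) : IsEdge (p m) (x, y) (x, y + 1) ↔
    (-(m : ℤ) ≤ y ∧ y < m) ∧ (x = m ∨ x = -m) := by
  have hm' : (0 : ℤ) < m := by exact_mod_cast hm
  constructor
  · rintro ⟨i, h⟩
    have hst := q_step hm' (Int.natCast_nonneg i.val) (val_bd hm i)
    have hbd := val_bd hm i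
    rw [p_succ hm, p] at h
    unfold q at h hst
    rcases h with ⟨h1, h2⟩ | ⟨h1, h2⟩ <;>
    · rcases hst with ⟨h3, h4, h5⟩ | ⟨h3, h4, h5, h6⟩ | ⟨h3, h4, h5, h6⟩ | ⟨h3, h4, h5, h6⟩ <;>
      · rw [h2, h1] at h3
        rw [h1] at h4
        simp only [Prod.ext_iff, Prod.fst_add, Prod.snd_add, Prod.fst_sub, Prod.snd_sub] at h3 h4
        split_ifs at h1 <;> simp only [Prod.mk.injEq] at h1 <;> omega
  · rintro ⟨⟨h1, h2⟩, rfl | rfl⟩
    · rcases le_or_gt 0 y with hy | hy
      · obtain ⟨a, ha⟩ := Int.eq_ofNat_of_zero_le hy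
        refine ⟨(a : ZMod (8 * m)), Or.inl ?_⟩
        have hv : ((a : ZMod (8 * m)).val : ℤ) = a := by
          rw [ZMod.val_cast_of_lt (by omega)]
        rw [p_succ hm, p, hv]
        unfold q
        constructor <;> split_ifs <;> simp only [Prod.mk.injEq, true_and, and_true] <;> omega
      · obtain ⟨a, ha⟩ := Int.eq_ofNat_of_zero_le (show 0 ≤ y + 8 * (m : ℤ) by omega)
        refine ⟨(a : ZMod (8 * m)), Or.inl ?_⟩
        have hv : ((a : ZMod (8 * m)).val : ℤ) = a := by
          rw [ZMod.val_cast_of_lt (by omega)]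
        rw [p_succ hm, p, hv]
        unfold q
        constructor <;> split_ifs <;> simp only [Prod.mk.injEq, true_and, and_true] <;> omega
    · obtain ⟨a, ha⟩ := Int.eq_ofNat_of_zero_le (show 0 ≤ 4 * (m : ℤ) - (y + 1) by omega)
      refine ⟨(a : ZMod (8 * m)), Or.inr ?_⟩
      have hv : ((a : ZMod (8 * m)).val : ℤ) = a := by
        rw [ZMod.val_cast_of_lt (by omega)]
      rw [p_succ hm, p, hv]
      unfold q
      constructor <;> split_ifs <;> simp only [Prod.mk.injEq, true_and, and_true] <;> omega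

/-- The diagonals are not edges of the polygon. -/
lemma isEdge_d {m : ℕ} (hm : 0 < m) (x y : ℤ) : ¬ IsEdge (p m) (x + 1, y) (x, y + 1) := by
  have hm' : (0 : ℤ) < m := by exact_mod_cast hm
  rintro ⟨i, h⟩
  have hst := q_step hm' (Int.natCast_nonneg i.val) (val_bd hm i)
  rw [p_succ hm, p] at h
  rcases h with ⟨h1, h2⟩ | ⟨h1, h2⟩ <;>
  · rcases hst with ⟨h3, -⟩ | ⟨h3, -⟩ | ⟨h3, -⟩ | ⟨h3, -⟩ <;>
    · rw [h2, h1] at h3
      simp only [Prod.ext_iff, Prod.fst_add, Prod.snd_add, Prod.fst_sub, Prod.snd_sub] at h3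
      omega

theorem encloses {m : ℕ} (hm : 0 < m) : Encloses (p m) (tri m) := by
  rintro ⟨x, y⟩
  refine ⟨?_, ?_, ?_⟩
  · have e1 : ((x, y) : ℤ × ℤ) + (1, 0) = (x + 1, y) := by simp
    have e2 : ((x, y) : ℤ × ℤ) - (0, 1) = (x, y - 1) := by simp
    rw [Side, e1, e2, isEdge_h hm, mem_tri, mem_tri]
    omega
  · have e1 : ((x, y) : ℤ × ℤ) + (0, 1) = (x, y + 1) := by simp
    have e2 : ((x, y) : ℤ × ℤ) - (1, 0) = (x - 1, y) := by simp
    rw [Side, e1, e2, isEdge_v hm, mem_tri, mem_tri]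
    omega
  · have e1 : ((x, y) : ℤ × ℤ) + (1, 0) = (x + 1, y) := by simp
    have e2 : ((x, y) : ℤ × ℤ) + (0, 1) = (x, y + 1) := by simp
    rw [Side, e1, e2, mem_tri, mem_tri]
    have := isEdge_d hm x y
    tauto

end Vale.Agent.P153.R2.EXAP
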