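import Vale.Agent.P153.R2.EXAP.Poly

/-! # P153, block EXAP: the homeomorphism of the plane which maps the disc onto the rhombus -/

namespace Vale.Agent.P153.R2.EXAP

open Set Filter Topology Vale.Agent.P153.R2.Final

/-- First lattice coordinate. -/
noncomputable def la : (ℝ × ℝ) →ₗ[ℝ] ℝ := LinearMap.fst ℝ ℝ ℝ - (1 / √3 : ℝ) • LinearMap.snd ℝ ℝ ℝ

/-- Second lattice coordinate. -/
noncomputable def lb : (ℝ × ℝ) →ₗ[ℝ] ℝ := (2 / √3 : ℝ) • LinearMap.snd ℝ ℝ ℝ

lemma la_apply (w : ℝ × ℝ) : la w = w.1 - 1 / √3 * w.2 := rfl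

lemma lb_apply (w : ℝ × ℝ) : lb w = 2 / √3 * w.2 := rfl

lemma sqrt3_pos : 0 < √(3 : ℝ) := Real.sqrt_pos.2 (by norm_num)

lemma sqrt3_sq : √(3 : ℝ) * √3 = 3 := Real.mul_self_sqrt (by norm_num)

lemma la_pt (v : ℤ × ℤ) : la (pt v) = v.1 := by
  have := sqrt3_pos
  rw [la_apply, pt]
  field_simp
  ring

lemma lb_pt (v : ℤ × ℤ) : lb (pt v) = v.2 := by
  have := sqrt3_pos
  rw [lb_apply, pt]
  field_simp

/-- The point of the plane with given lattice coordinates. -/
lemma eq_of_coord {w : ℝ × ℝ} : w = (la w + lb w / 2, √3 / 2 * lb w) := by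
  have := sqrt3_pos
  rw [la_apply, lb_apply]
  ext
  · simp only
    field_simp
    ring
  · simp only
    field_simp

/-- The seminorm whose unit ball is the rhombus. -/
noncomputable def sR : Seminorm ℝ (ℝ × ℝ) :=
  (normSeminorm ℝ ℝ).comp la ⊔ (normSeminorm ℝ ℝ).comp lb

lemma sR_apply (w : ℝ × ℝ) : sR w = max |la w| |lb w| := rfl

/-- The linear map onto the complex plane. -/
noncomputable def lC : (ℝ × ℝ) →ₗ[ℝ] ℂ where
  toFun w := ⟨w.1, w.2⟩
  map_add' x y := by apply Complex.ext <;> simp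
  map_smul' c x := by apply Complex.ext <;> simp

/-- The Euclidean norm as a seminorm. -/
noncomputable def sE : Seminorm ℝ (ℝ × ℝ) := (normSeminorm ℝ ℂ).comp lC

lemma sE_apply (w : ℝ × ℝ) : sE w = ‖(⟨w.1, w.2⟩ : ℂ)‖ := rfl

lemma sE_sq (w : ℝ × ℝ) : sE w ^ 2 = w.1 ^ 2 + w.2 ^ 2 := by
  rw [sE_apply, ← Complex.normSq_eq_norm_sq, Complex.normSq_apply]
  ring

lemma disc_eq : {z : ℝ × ℝ | z.1 ^ 2 + z.2 ^ 2 < 1} = sE.ball 0 1 := by
  ext w
  rw [Seminorm.mem_ball_zero, mem_ofPred_eq, ← sE_sq]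
  have h0 : 0 ≤ sE w := apply_nonneg _ _
  constructor
  · intro h
    nlinarith
  · intro h
    nlinarith

lemma sE_continuous : Continuous sE := by
  have h : Continuous fun w : ℝ × ℝ => ‖((w.1 : ℂ) + (w.2 : ℂ) * Complex.I)‖ := by fun_prop
  refine h.congr fun w => ?_
  rw [sE_apply, Complex.mk_eq_add_mul_I]

lemma sR_continuous : Continuous sR := by
  have h : Continuous fun w : ℝ × ℝ => max |w.1 - 1 / √3 * w.2| |2 / √3 * w.2| := by fun_prop
  exact h

lemma isOpen_disc : IsOpen (sE.ball 0 1) := by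
  have : sE.ball 0 1 = {w | sE w < 1} := by ext w; rw [Seminorm.mem_ball_zero]; rfl
  rw [this]
  exact isOpen_lt sE_continuous continuous_const

lemma isOpen_rhomb : IsOpen (sR.ball 0 1) := by
  have : sR.ball 0 1 = {w | sR w < 1} := by ext w; rw [Seminorm.mem_ball_zero]; rfl
  rw [this]
  exact isOpen_lt sR_continuous continuous_const

lemma bdd_disc : Bornology.IsVonNBounded ℝ (sE.ball 0 1) := by
  rw [NormedSpace.isVonNBounded_iff]
  refine (Metric.isBounded_ball (x := (0 : ℝ × ℝ)) (r := 2)).subset fun w hw => ?_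
  rw [Seminorm.mem_ball_zero] at hw
  have h1 := sE_sq w
  have h0 : 0 ≤ sE w := apply_nonneg _ _
  have h2 : w.1 ^ 2 + w.2 ^ 2 < 1 := by nlinarith
  rw [mem_ball_zero_iff, Prod.norm_def]
  apply max_lt <;> rw [Real.norm_eq_abs] <;> apply abs_lt_of_sq_lt_sq _ (by norm_num) <;>
    nlinarith [sq_nonneg w.1, sq_nonneg w.2]

lemma bdd_rhomb : Bornology.IsVonNBounded ℝ (sR.ball 0 1) := by
  rw [NormedSpace.isVonNBounded_iff]
  refine (Metric.isBounded_ball (x := (0 : ℝ × ℝ)) (r := 2)).subset fun w hw => ?_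
  rw [Seminorm.mem_ball_zero, sR_apply, max_lt_iff] at hw
  have h3 : √(3 : ℝ) < 2 := by
    rw [Real.sqrt_lt' (by norm_num)]
    norm_num
  have h3' := sqrt3_pos
  rw [mem_ball_zero_iff, Prod.norm_def]
  have e := eq_of_coord (w := w)
  have e1 : w.1 = la w + lb w / 2 := congrArg Prod.fst e
  have e2 : w.2 = √3 / 2 * lb w := congrArg Prod.snd e
  have ha := abs_lt.1 hw.1
  have hb := abs_lt.1 hw.2
  apply max_lt <;> rw [Real.norm_eq_abs, abs_lt]
  · rw [e1]
    constructor <;> linarith [ha.1, ha.2, hb.1, hb.2]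
  · rw [e2]
    constructor <;> nlinarith [ha.1, ha.2, hb.1, hb.2]

/-- **The homeomorphism of the plane which maps the disc onto the rhombus.** -/
noncomputable def Phi : (ℝ × ℝ) ≃ₜ (ℝ × ℝ) :=
  gaugeRescaleHomeomorph (sE.ball 0 1) (sR.ball 0 1) (sE.convex_ball 0 1)
    (isOpen_disc.mem_nhds (by simp [Seminorm.mem_ball_zero])) bdd_disc (sR.convex_ball 0 1)
    (isOpen_rhomb.mem_nhds (by simp [Seminorm.mem_ball_zero])) bdd_rhomb

lemma Phi_apply (w : ℝ × ℝ) : Phi w = (sE w / sR w) • w := by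
  change gaugeRescale _ _ w = _
  rw [gaugeRescale, Seminorm.gauge_ball, Seminorm.gauge_ball]

lemma dom_Phi : dom Phi = sR.ball 0 1 := by
  rw [dom, disc_eq]
  have h := image_gaugeRescaleHomeomorph_interior (sE.convex_ball 0 1)
    (isOpen_disc.mem_nhds (by simp [Seminorm.mem_ball_zero])) bdd_disc (sR.convex_ball 0 1)
    (isOpen_rhomb.mem_nhds (by simp [Seminorm.mem_ball_zero])) bdd_rhomb
  rw [isOpen_disc.interior_eq, isOpen_rhomb.interior_eq] at h
  exact h

lemma sE_circ (t : ℝ) : sE (circ t) = 1 := by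
  have h := sE_sq (circ t)
  have h0 : 0 ≤ sE (circ t) := apply_nonneg _ _
  rw [circ] at *
  simp only [Real.cos_sq_add_sin_sq] at h
  nlinarith

lemma Phi_circ (t : ℝ) : Phi (circ t) = (1 / sR (circ t)) • circ t := by
  rw [Phi_apply, sE_circ]

lemma Phi_neg (w : ℝ × ℝ) : Phi (-w) = -Phi w := by
  rw [Phi_apply, Phi_apply, map_neg_eq_map, map_neg_eq_map, smul_neg]

end Vale.Agent.P153.R2.EXAP
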